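import Vale.Agent.Lib.P160.Bonf

/-!
# P160 (singularity of symmetric random sign matrices): a lower bound from all pairs of rows

Let `q n` be the fraction of singular matrices among the symmetric `n x n` matrices with
entries `+1` and `-1` (the probability that a uniformly random symmetric sign matrix is singular).
Counting, for every pair of rows, the two events that the rows are equal or opposite, and
subtracting the pairwise overlaps (second Bonferroni inequality), gives

  `q n ≥ n (n - 1) / 2 ^ n - n (n - 1) (n (n - 1) - 1) / 4 ^ n`,

which improves the bound `q n ≥ 2 ^ (-n)` coming from one specified pair of equal rows by a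
factor of order `n ^ 2`.
-/

namespace Vale.Agent.Results.P160.PairsLowerBound

open Vale.Agent.Lib.P160

theorem result (n : ℕ) :
    ((n : ℚ) * ((n : ℚ) - 1)) / 2 ^ n
      - ((n : ℚ) * ((n : ℚ) - 1)) * ((n : ℚ) * ((n : ℚ) - 1) - 1) / 4 ^ n ≤ q n :=
  main n

end Vale.Agent.Results.P160.PairsLowerBound
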